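import Vale.Agent.P251CW.WH
import Vale.Agent.P251CD.Tp

/-!
# P251CW: the weak Hausdorff quotient of a quasi-topological space

`Wq Y` is the quotient of `Tp Y` by the relation: not separated by continuous maps to weak
Hausdorff spaces.  It is compactly generated and weak Hausdorff, and `eta Y : Y ⟶ ofTop (Wq Y) _`
is the universal map to a weak Hausdorff space.
-/

set_option linter.all false

open CategoryTheory Topology OnePoint

namespace Vale.Agent.P251CW

open Vale.Agent.P251.H Vale.Agent.P251.H.PQ Vale.Agent.P251CD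

instance cg_Tp (Y : PQ) : CompactlyGeneratedSpace (Tp Y) :=
  compactlyGeneratedSpace_of_isClosed (fun _ h =>
    P251CD.isClosed_iff.2 (fun K _ hp => h K _ (cont_plot hp)))

/-- not separated by continuous maps to weak Hausdorff spaces -/
def rel (Y : PQ) : Setoid (Tp Y) where
  r x y := ∀ (Z : Type) [TopologicalSpace Z], WH Z → ∀ φ : Tp Y → Z, Continuous φ → φ x = φ y
  iseqv := ⟨fun _ _ _ _ _ _ => rfl, fun h Z _ hZ φ hφ => (h Z hZ φ hφ).symm,
    fun h h' Z _ hZ φ hφ => (h Z hZ φ hφ).trans (h' Z hZ φ hφ)⟩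

/-- the weak Hausdorff quotient -/
def Wq (Y : PQ) : Type := Quotient (rel Y)

instance (Y : PQ) : TopologicalSpace (Wq Y) :=
  inferInstanceAs (TopologicalSpace (Quotient (rel Y)))

/-- the class of a point -/
def wmk {Y : PQ} (x : OnePoint Y) : Wq Y := Quotient.mk (rel Y) (mk x)

/-- the base point -/
def wpt (Y : PQ) : Wq Y := wmk ∞

theorem wmk_infty (Y : PQ) : (wmk ∞ : Wq Y) = wpt Y := rfl

variable {X Y W : PQ}

theorem wmk_surj : Function.Surjective (wmk : OnePoint Y → Wq Y) :=
  fun ξ => Quotient.inductionOn ξ (fun x => ⟨un x, rfl⟩)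

theorem wind {p : Wq Y → Prop} (h : ∀ x, p (wmk x)) (ξ : Wq Y) : p ξ := by
  obtain ⟨x, rfl⟩ := wmk_surj ξ
  exact h x

theorem isQuot_wmk (Y : PQ) : IsQuotientMap (fun x : Tp Y => wmk (un x)) :=
  isQuotientMap_quotient_mk' (s := rel Y)

theorem cont_wmk (Y : PQ) : Continuous (fun x : Tp Y => wmk (un x)) := (isQuot_wmk Y).continuous

theorem wmk_plot {K : CH} {p : K → OnePoint Y} (hp : Y.plot K p) :
    Continuous (fun k => wmk (p k)) := (cont_wmk Y).comp (cont_plot hp)

theorem wmk_eq_iff {x y : OnePoint Y} : wmk x = wmk y ↔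
    ∀ (Z : Type) [TopologicalSpace Z], WH Z → ∀ φ : Tp Y → Z, Continuous φ →
      φ (mk x) = φ (mk y) :=
  Quotient.eq (r := rel Y)

/-- continuity of functions out of `Wq Y` -/
theorem wcont_iff {Z : Type*} [TopologicalSpace Z] {f : Wq Y → Z} :
    Continuous f ↔
      ∀ (K : CH) (p : K → OnePoint Y), Y.plot K p → Continuous (fun k => f (wmk (p k))) := by
  rw [(isQuot_wmk Y).continuous_iff]
  exact cont_iff

instance cg_Wq (Y : PQ) : CompactlyGeneratedSpace (Wq Y) :=
  compactlyGeneratedSpace_of_coinduced (cont_wmk Y) (isQuot_wmk Y).eq_coinduced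

section lift

variable {Z : Type} [TopologicalSpace Z]

/-- descent of a function which is continuous on plots -/
def wlift (hZ : WH Z) (φ : OnePoint Y → Z)
    (hφ : ∀ (K : CH) (p : K → OnePoint Y), Y.plot K p → Continuous (fun k => φ (p k))) :
    Wq Y → Z :=
  Quotient.lift (s := rel Y) (fun x => φ (un x))
    (fun _ _ h => h Z hZ (fun x => φ (un x)) (cont_iff.2 hφ))

@[simp] theorem wlift_wmk (hZ : WH Z) (φ : OnePoint Y → Z)
    (hφ : ∀ (K : CH) (p : K → OnePoint Y), Y.plot K p → Continuous (fun k => φ (p k)))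
    (x : OnePoint Y) : wlift hZ φ hφ (wmk x) = φ x := rfl

theorem cont_wlift (hZ : WH Z) (φ : OnePoint Y → Z)
    (hφ : ∀ (K : CH) (p : K → OnePoint Y), Y.plot K p → Continuous (fun k => φ (p k))) :
    Continuous (wlift hZ φ hφ) := wcont_iff.2 hφ

theorem eq_of_wmk (hZ : WH Z) (φ : OnePoint Y → Z)
    (hφ : ∀ (K : CH) (p : K → OnePoint Y), Y.plot K p → Continuous (fun k => φ (p k)))
    {x y : OnePoint Y} (h : wmk x = wmk y) : φ x = φ y :=
  congrArg (wlift hZ φ hφ) h

end lift

theorem wh_Wq (Y : PQ) : WH (Wq Y) := by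
  refine WH.of_cg (fun K _ _ _ f g hf hg => ?_)
  rw [← isOpen_compl_iff, isOpen_iff_forall_mem_open]
  intro k hk
  obtain ⟨x, hx⟩ := wmk_surj (f k)
  obtain ⟨y, hy⟩ := wmk_surj (g k)
  have h1 : ¬ wmk x = wmk y := fun e => hk (hx.symm.trans (e.trans hy))
  rw [wmk_eq_iff] at h1
  simp only [not_forall] at h1
  obtain ⟨Z, _, hZ, φ, hφ, hne⟩ := h1
  have hφ' := cont_iff.1 hφ
  have hc := cont_wlift hZ (fun x => φ (mk x)) hφ'
  refine ⟨{m | wlift hZ (fun x => φ (mk x)) hφ' (f m) = wlift hZ (fun x => φ (mk x)) hφ' (g m)}ᶜ,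
    fun m hm e => hm (congrArg _ e), (hZ.eq_closed (hc.comp hf) (hc.comp hg)).isOpen_compl, ?_⟩
  change ¬ (wlift hZ _ hφ' (f k) = wlift hZ _ hφ' (g k))
  rw [← hx, ← hy]
  exact hne

/-- continuity on products with a locally compact space -/
theorem wcont_prod {L Z : Type*} [TopologicalSpace L] [LocallyCompactSpace L]
    [TopologicalSpace Z] {f : Wq Y × L → Z}
    (h : ∀ (K : CH) (p : K → OnePoint Y), Y.plot K p →
      Continuous (fun q : K × L => f (wmk (p q.1), q.2))) : Continuous f := by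
  have h1 : ∀ x : Wq Y, Continuous (fun l => f (x, l)) := wind (fun x =>
    (h (CH.of Unit) (fun _ => x) (Y.plot_const _ _)).comp
      (f := fun l : L => (((), l) : Unit × L)) (by fun_prop))
  let g : Wq Y → C(L, Z) := fun x => ⟨fun l => f (x, l), h1 x⟩
  have hg : Continuous g := wcont_iff.2 (fun K p hp =>
    (ContinuousMap.curry ⟨_, h K p hp⟩).continuous)
  exact ContinuousMap.continuous_uncurry_of_continuous ⟨g, hg⟩

theorem wcont_prod' {L Z : Type*} [TopologicalSpace L] [LocallyCompactSpace L]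
    [TopologicalSpace Z] {f : L × Wq Y → Z}
    (h : ∀ (K : CH) (p : K → OnePoint Y), Y.plot K p →
      Continuous (fun q : L × K => f (q.1, wmk (p q.2)))) : Continuous f :=
  (wcont_prod (f := fun q : Wq Y × L => f (q.2, q.1))
    (fun K p hp => (h K p hp).comp continuous_swap)).comp continuous_swap

/-- the form with a compact Hausdorff parameter space -/
theorem wcont_par {K : Type} [TopologicalSpace K] [CompactSpace K] [T2Space K] {Z : Type*}
    [TopologicalSpace Z] {f : K → Wq Y → Z} {a : K → Wq Y} (ha : Continuous a)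
    (h : ∀ (L : CH) (p : L → OnePoint Y), Y.plot L p →
      Continuous (fun q : K × L => f q.1 (wmk (p q.2)))) : Continuous (fun k => f k (a k)) :=
  (wcont_prod' (f := fun q : K × Wq Y => f q.1 q.2) h).comp (continuous_id.prodMk ha)

section map

/-- the map induced by a morphism -/
def wmap (f : X ⟶ Y) : Wq X → Wq Y :=
  wlift (wh_Wq Y) (fun x => wmk (app f x)) (fun _ _ hp => wmk_plot (app_plot f hp))

@[simp] theorem wmap_wmk (f : X ⟶ Y) (x : OnePoint X) : wmap f (wmk x) = wmk (app f x) := rfl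

theorem cont_wmap (f : X ⟶ Y) : Continuous (wmap f) := cont_wlift _ _ _

@[simp] theorem wmap_wpt (f : X ⟶ Y) : wmap f (wpt X) = wpt Y :=
  congrArg wmk (app_infty f)

@[simp] theorem wmap_id (ξ : Wq X) : wmap (𝟙 X) ξ = ξ := wind (p := fun ξ => wmap (𝟙 X) ξ = ξ)
  (fun _ => rfl) ξ

@[simp] theorem wmap_comp (f : X ⟶ Y) (g : Y ⟶ W) (ξ : Wq X) :
    wmap (f ≫ g) ξ = wmap g (wmap f ξ) :=
  wind (p := fun ξ => wmap (f ≫ g) ξ = wmap g (wmap f ξ)) (fun _ => rfl) ξ

@[simp] theorem wmap_zero (ξ : Wq X) : wmap (0 : X ⟶ Y) ξ = wpt Y :=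
  wind (p := fun ξ => wmap (0 : X ⟶ Y) ξ = wpt Y) (fun _ => rfl) ξ

/-- a family of morphisms which is jointly plot preserving gives a jointly continuous family -/
theorem wmap_par {K : CH} (w : K → (X ⟶ Y))
    (hw : ∀ (L : CH) (g : L → K) (p : L → OnePoint X), Continuous g → X.plot L p →
      Y.plot L (fun l => app (w (g l)) (p l))) :
    Continuous (fun q : K × Wq X => wmap (w q.1) q.2) :=
  wcont_prod' (fun L p hp => wmk_plot (hw (CH.prod K L) Prod.fst (fun q => p q.2) continuous_fst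
    (X.plot_comp (L := CH.prod K L) Prod.snd p continuous_snd hp)))

end map

section two

variable {Z : Type} [TopologicalSpace Z]

/-- functions of two variables which are continuous on pairs of plots -/
def Bi (X Y : PQ) {Z : Type} [TopologicalSpace Z] (F : OnePoint X → OnePoint Y → Z) : Prop :=
  ∀ (K : CH) (a : K → OnePoint X) (b : K → OnePoint Y), X.plot K a → Y.plot K b →
    Continuous (fun k => F (a k) (b k))

theorem Bi.swap {F : OnePoint X → OnePoint Y → Z} (h : Bi X Y F) : Bi Y X (fun y x => F x y) :=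
  fun K b a hb ha => h K a b ha hb

/-- descent in the first variable -/
def wlift₁ (hZ : WH Z) {F : OnePoint X → OnePoint Y → Z} (h : Bi X Y F) (ξ : Wq X)
    (y : OnePoint Y) : Z :=
  wlift hZ (fun x => F x y) (fun K a ha => h K a _ ha (Y.plot_const K y)) ξ

@[simp] theorem wlift₁_wmk (hZ : WH Z) {F : OnePoint X → OnePoint Y → Z} (h : Bi X Y F)
    (x : OnePoint X) (y : OnePoint Y) : wlift₁ hZ h (wmk x) y = F x y := rfl

theorem cont_wlift₁ (hZ : WH Z) {F : OnePoint X → OnePoint Y → Z} (h : Bi X Y F) {K : CH}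
    {a : K → Wq X} {b : K → OnePoint Y} (ha : Continuous a) (hb : Y.plot K b) :
    Continuous (fun k => wlift₁ hZ h (a k) (b k)) :=
  wcont_par (f := fun k ξ => wlift₁ hZ h ξ (b k)) ha (fun L p hp =>
    h (CH.prod K L) (fun q => p q.2) (fun q => b q.1)
      (X.plot_comp (L := CH.prod K L) Prod.snd p continuous_snd hp)
      (Y.plot_comp (L := CH.prod K L) Prod.fst b continuous_fst hb))

/-- descent in both variables -/
def wlift₂ (hZ : WH Z) {F : OnePoint X → OnePoint Y → Z} (h : Bi X Y F) (ξ : Wq X) (η : Wq Y) :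
    Z :=
  wlift hZ (fun y => wlift₁ hZ h ξ y)
    (fun _ _ hb => cont_wlift₁ hZ h (a := fun _ => ξ) continuous_const hb) η

@[simp] theorem wlift₂_wmk (hZ : WH Z) {F : OnePoint X → OnePoint Y → Z} (h : Bi X Y F)
    (x : OnePoint X) (y : OnePoint Y) : wlift₂ hZ h (wmk x) (wmk y) = F x y := rfl

theorem cont_wlift₂ (hZ : WH Z) {F : OnePoint X → OnePoint Y → Z} (h : Bi X Y F) {K : Type}
    [TopologicalSpace K] [CompactSpace K] [T2Space K] {a : K → Wq X} {b : K → Wq Y}
    (ha : Continuous a) (hb : Continuous b) : Continuous (fun k => wlift₂ hZ h (a k) (b k)) :=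
  wcont_par (f := fun k η => wlift₂ hZ h (a k) η) hb (fun L p hp =>
    cont_wlift₁ hZ h (K := CH.prod (CH.of K) L) (a := fun q => a q.1) (b := fun q => p q.2)
      (ha.comp continuous_fst)
      (Y.plot_comp (L := CH.prod (CH.of K) L) Prod.snd p continuous_snd hp))

end two

end Vale.Agent.P251CW
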