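import Vale.Agent.P251CW.Wq
import Vale.Agent.P251CD.Wedge

/-!
# P251CW: the unit `eta Y : Y ⟶ ofTop (Wq Y) _` and the adjunction
-/

set_option linter.all false

open CategoryTheory MonoidalCategory Topology OnePoint

namespace Vale.Agent.P251CW

open Vale.Agent.P251.H Vale.Agent.P251.H.PQ Vale.Agent.P251CD
open Vale.Agent.P251.G.LC (smash smash_coe_coe smash_infty_left smash_infty_right)

variable {X Y W : PQ}

theorem whp_iff : WHp Y ↔ WH (Tp Y) :=
  ⟨fun h K _ _ _ f hf => h (CH.of K) f hf, fun h K f hf => h K f hf⟩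

theorem WH.whp {Z : Type} [TopologicalSpace Z] (h : WH Z) (z : Z) : WHp (ofTop Z z) :=
  whp_ofTop Z z (fun K f hf => h K f hf)

section top

variable {Z Z' Z'' : Type} [TopologicalSpace Z] [TopologicalSpace Z'] [TopologicalSpace Z'']
  {z : Z} {z' : Z'} {z'' : Z''}

/-- a point of `ofTop Z z` as a point of `Z` -/
noncomputable def dn (p : OnePoint (ofTop Z z)) : Z := Pt.equiv Z z p

/-- a point of `Z` as a point of `ofTop Z z` -/
noncomputable def up (z : Z) (w : Z) : OnePoint (ofTop Z z) := (Pt.equiv Z z).symm w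

@[simp] theorem dn_up (w : Z) : dn (up z w) = w := (Pt.equiv Z z).apply_symm_apply w

@[simp] theorem up_dn (p : OnePoint (ofTop Z z)) : up z (dn p) = p :=
  (Pt.equiv Z z).symm_apply_apply p

@[simp] theorem dn_infty : dn (∞ : OnePoint (ofTop Z z)) = z := rfl

@[simp] theorem up_base : up z z = ∞ := Pt.equiv_symm_base Z z

theorem dn_inj : Function.Injective (dn : OnePoint (ofTop Z z) → Z) := (Pt.equiv Z z).injective

theorem plot_iff {K : CH} {p : K → OnePoint (ofTop Z z)} :
    (ofTop Z z).plot K p ↔ Continuous (fun k => dn (p k)) := Iff.rfl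

theorem up_plot {K : CH} {g : K → Z} (hg : Continuous g) :
    (ofTop Z z).plot K (fun k => up z (g k)) := ofTop_plot hg

theorem top_ext {f g : X ⟶ ofTop Z z} (h : ∀ x, dn (app f x) = dn (app g x)) : f = g :=
  hom_ext' (fun x => dn_inj (h x))

/-- a morphism to `ofTop Z z` from a pointed function which is continuous on plots -/
noncomputable def homTop (φ : OnePoint X → Z) (h0 : φ ∞ = z)
    (hφ : ∀ (K : CH) (p : K → OnePoint X), X.plot K p → Continuous (fun k => φ (p k))) :
    X ⟶ ofTop Z z :=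
  ⟨fun x => up z (φ x), by rw [h0]; exact up_base, fun K p hp => up_plot (hφ K p hp)⟩

theorem app_homTop (φ : OnePoint X → Z) (h0 : φ ∞ = z) (hφ) (x : OnePoint X) :
    app (homTop φ h0 hφ) x = up z (φ x) := rfl

@[simp] theorem dn_homTop (φ : OnePoint X → Z) (h0 : φ ∞ = z) (hφ) (x : OnePoint X) :
    dn (app (homTop φ h0 hφ) x) = φ x := dn_up _

theorem cont_dn_app (f : X ⟶ ofTop Z z) {K : CH} {p : K → OnePoint X} (hp : X.plot K p) :
    Continuous (fun k => dn (app f (p k))) := app_plot f hp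

/-- a continuous pointed map as a morphism -/
noncomputable def topMap (g : Z → Z') (hg : Continuous g) (h0 : g z = z') :
    ofTop Z z ⟶ ofTop Z' z' :=
  homTop (fun p => g (dn p)) h0 (fun _ _ hp => hg.comp hp)

@[simp] theorem dn_topMap (g : Z → Z') (hg : Continuous g) (h0 : g z = z')
    (p : OnePoint (ofTop Z z)) : dn (app (topMap g hg h0) p) = g (dn p) := dn_up _

theorem app_topMap_up (g : Z → Z') (hg : Continuous g) (h0 : g z = z') (w : Z) :
    app (topMap g hg h0) (up z w) = up z' (g w) := by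
  apply dn_inj
  rw [dn_topMap, dn_up, dn_up]

theorem topMap_id : topMap (fun w : Z => w) continuous_id rfl = 𝟙 (ofTop Z z) :=
  top_ext (fun _ => dn_topMap _ _ _ _)

theorem topMap_comp (g : Z → Z') (hg : Continuous g) (h0 : g z = z') (g' : Z' → Z'')
    (hg' : Continuous g') (h0' : g' z' = z'') :
    topMap g hg h0 ≫ topMap g' hg' h0' =
      topMap (fun w => g' (g w)) (hg'.comp hg) (by rw [h0, h0']) :=
  top_ext (fun p => by rw [app_comp, dn_topMap, dn_topMap, dn_topMap])

/-- the function underlying a morphism between spaces -/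
noncomputable def unTop (f : ofTop Z z ⟶ ofTop Z' z') (w : Z) : Z' := dn (app f (up z w))

theorem unTop_base (f : ofTop Z z ⟶ ofTop Z' z') : unTop f z = z' := by
  unfold unTop
  rw [up_base, app_infty, dn_infty]

theorem cont_unTop [CompactlyGeneratedSpace Z] (f : ofTop Z z ⟶ ofTop Z' z') :
    Continuous (unTop f) :=
  continuous_from_compactlyGeneratedSpace _ (fun K _ _ _ _ hg =>
    cont_dn_app f (K := CH.of K) (up_plot hg))

theorem unTop_topMap (g : Z → Z') (hg : Continuous g) (h0 : g z = z') (w : Z) :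
    unTop (topMap g hg h0) w = g w := by
  unfold unTop
  rw [dn_topMap, dn_up]

theorem topMap_unTop [CompactlyGeneratedSpace Z] (f : ofTop Z z ⟶ ofTop Z' z') :
    topMap (unTop f) (cont_unTop f) (unTop_base f) = f :=
  top_ext (fun p => by rw [dn_topMap, unTop, up_dn])

/-- a compactly generated space is the space of its quasi-topological space -/
noncomputable def tpHomeo [CompactlyGeneratedSpace Z] (z : Z) : Tp (ofTop Z z) ≃ₜ Z where
  toFun p := dn (un p)
  invFun w := mk (up z w)
  left_inv p := up_dn (un p)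
  right_inv w := dn_up w
  continuous_toFun := cont_counit Z z
  continuous_invFun := continuous_from_compactlyGeneratedSpace _ (fun K _ _ _ _ hg =>
    cont_plot (X := ofTop Z z) (K := CH.of K) (up_plot hg))

/-- the descent of a morphism to a weak Hausdorff space -/
noncomputable def desc (hZ : WH Z) (f : Y ⟶ ofTop Z z) : Wq Y → Z :=
  wlift hZ (fun y => dn (app f y)) (fun _ _ hp => cont_dn_app f hp)

@[simp] theorem desc_wmk (hZ : WH Z) (f : Y ⟶ ofTop Z z) (y : OnePoint Y) :
    desc hZ f (wmk y) = dn (app f y) := rfl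

theorem cont_desc (hZ : WH Z) (f : Y ⟶ ofTop Z z) : Continuous (desc hZ f) := cont_wlift _ _ _

theorem desc_wpt (hZ : WH Z) (f : Y ⟶ ofTop Z z) : desc hZ f (wpt Y) = z :=
  congrArg dn (app_infty f)

end top

/-- the unit -/
noncomputable def eta (Y : PQ) : Y ⟶ ofTop (Wq Y) (wpt Y) :=
  homTop wmk rfl (fun _ _ hp => wmk_plot hp)

theorem app_eta (y : OnePoint Y) : app (eta Y) y = up (wpt Y) (wmk y) := rfl

@[simp] theorem dn_eta (y : OnePoint Y) : dn (app (eta Y) y) = wmk y := dn_up _

theorem eta_surj (Y : PQ) : Function.Surjective (app (eta Y)) := fun p => by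
  obtain ⟨y, hy⟩ := wmk_surj (dn p)
  exact ⟨y, dn_inj ((dn_eta y).trans hy)⟩

instance epi_eta (Y : PQ) : Epi (eta Y) := ⟨fun f g e => hom_ext' (fun p => by
  obtain ⟨y, rfl⟩ := eta_surj Y p
  exact congrArg (fun u => app u y) e)⟩

theorem eta_nat (f : X ⟶ Y) :
    eta X ≫ topMap (wmap f) (cont_wmap f) (wmap_wpt f) = f ≫ eta Y :=
  top_ext (fun x => by rw [app_comp, app_comp, dn_topMap, dn_eta, dn_eta, wmap_wmk])

theorem eta_desc {Z : Type} [TopologicalSpace Z] {z : Z} (hZ : WH Z) (f : Y ⟶ ofTop Z z) :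
    eta Y ≫ topMap (desc hZ f) (cont_desc hZ f) (desc_wpt hZ f) = f :=
  top_ext (fun x => by rw [app_comp, dn_topMap, dn_eta, desc_wmk])

theorem desc_eta {Z : Type} [TopologicalSpace Z] {z : Z} (hZ : WH Z) (g : Wq Y → Z)
    (hg : Continuous g) (h0 : g (wpt Y) = z) (ξ : Wq Y) :
    desc hZ (eta Y ≫ topMap g hg h0) ξ = g ξ :=
  wind (p := fun ξ => desc hZ (eta Y ≫ topMap g hg h0) ξ = g ξ)
    (fun y => by rw [desc_wmk, app_comp, dn_topMap, dn_eta]) ξ

theorem wmk_inj (h : WHp Y) : Function.Injective (wmk : OnePoint Y → Wq Y) :=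
  fun _ _ e => wmk_eq_iff.1 e (Tp Y) (whp_iff.1 h) id continuous_id

/-- the inverse of `wmk` in the weak Hausdorff case -/
def wun (h : WHp Y) : Wq Y → Tp Y := wlift (whp_iff.1 h) mk (fun _ _ hp => cont_plot hp)

@[simp] theorem wun_wmk (h : WHp Y) (y : OnePoint Y) : wun h (wmk y) = mk y := rfl

theorem cont_wun (h : WHp Y) : Continuous (wun h) := cont_wlift _ _ _

theorem wmk_wun (h : WHp Y) (ξ : Wq Y) : wmk (un (wun h ξ)) = ξ :=
  wind (p := fun ξ => wmk (un (wun h ξ)) = ξ) (fun _ => rfl) ξ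

/-- in the weak Hausdorff case the quotient is the space itself -/
def wqHomeo (h : WHp Y) : Tp Y ≃ₜ Wq Y where
  toFun x := wmk (un x)
  invFun := wun h
  left_inv _ := rfl
  right_inv := wmk_wun h
  continuous_toFun := cont_wmk Y
  continuous_invFun := cont_wun h

/-- the counit: a homeomorphism for compactly generated weak Hausdorff spaces -/
noncomputable def counitHomeo {Z : Type} [TopologicalSpace Z] [CompactlyGeneratedSpace Z]
    (hZ : WH Z) (z : Z) : Wq (ofTop Z z) ≃ₜ Z := (wqHomeo (hZ.whp z)).symm.trans (tpHomeo z)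

@[simp] theorem counitHomeo_wmk {Z : Type} [TopologicalSpace Z] [CompactlyGeneratedSpace Z]
    (hZ : WH Z) (z : Z) (p : OnePoint (ofTop Z z)) : counitHomeo hZ z (wmk p) = dn p := rfl

theorem counitHomeo_symm {Z : Type} [TopologicalSpace Z] [CompactlyGeneratedSpace Z]
    (hZ : WH Z) (z w : Z) : (counitHomeo hZ z).symm w = wmk (up z w) := rfl

/-- plots of a good object are the continuous maps to `Wq` -/
theorem plot_of_wmk (hs : Sat Y) (h : WHp Y) {K : CH} {p : K → OnePoint Y}
    (hp : Continuous (fun k => wmk (p k))) : Y.plot K p :=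
  hs K (fun k => wun h (wmk (p k))) ((cont_wun h).comp hp)

/-- the inverse of the unit -/
noncomputable def etaInv (hs : Sat Y) (h : WHp Y) : ofTop (Wq Y) (wpt Y) ⟶ Y :=
  ⟨fun p => un (wun h (dn p)), rfl, fun K p hp => hs K (fun k => wun h (dn (p k)))
    ((cont_wun h).comp hp)⟩

theorem app_etaInv (hs : Sat Y) (h : WHp Y) (p : OnePoint (ofTop (Wq Y) (wpt Y))) :
    app (etaInv hs h) p = un (wun h (dn p)) := rfl

theorem isIso_eta (hs : Sat Y) (h : WHp Y) : IsIso (eta Y) :=
  ⟨etaInv hs h, hom_ext' (fun y => by rw [app_comp, app_etaInv, dn_eta]; rfl),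
    top_ext (fun p => by rw [app_comp, dn_eta, app_etaInv, wmk_wun]; rfl)⟩

theorem isIso_eta_iff : IsIso (eta Y) ↔ Sat Y ∧ WHp Y :=
  ⟨fun _ => ⟨(sat_ofTop _ _).of_iso (asIso (eta Y)),
    ((wh_Wq Y).whp _).of_iso (asIso (eta Y))⟩, fun h => isIso_eta h.1 h.2⟩

section ten

variable {Z : Type} [TopologicalSpace Z] {z : Z}

theorem bi_of_hom (f : X ⊗ Y ⟶ ofTop Z z) : Bi X Y (fun x y => dn (app f (smash x y))) :=
  fun _ _ _ ha hb => cont_dn_app f (tensor_plot X Y ha hb)

/-- extension along `eta X ▷ Y` -/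
noncomputable def tenExt (hZ : WH Z) (f : X ⊗ Y ⟶ ofTop Z z) :
    ofTop (Wq X) (wpt X) ⊗ Y ⟶ ofTop Z z :=
  lift₂ (X := ofTop (Wq X) (wpt X)) (Y := Y) (Z := ofTop Z z)
    (fun p y => up z (wlift₁ hZ (bi_of_hom f) (dn p) y))
    (fun y => by
      change up z (dn (app f (smash ∞ y))) = ∞
      rw [smash_infty_left, app_infty, dn_infty, up_base])
    (fun p => by
      obtain ⟨x, hx⟩ := wmk_surj (dn p)
      rw [← hx, wlift₁_wmk, smash_infty_right, app_infty, dn_infty, up_base])
    (fun _ _ _ ha hb => up_plot (cont_wlift₁ hZ (bi_of_hom f) ha hb))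

theorem dn_tenExt (hZ : WH Z) (f : X ⊗ Y ⟶ ofTop Z z) (x : OnePoint X) (y : OnePoint Y) :
    dn (app (tenExt hZ f) (smash (up (wpt X) (wmk x)) y)) = dn (app f (smash x y)) := by
  unfold tenExt
  refine (congrArg dn (app_lift₂_smash _ _ _ _ _ _)).trans ?_
  rw [dn_up, dn_up, wlift₁_wmk]

theorem eta_tenExt (hZ : WH Z) (f : X ⊗ Y ⟶ ofTop Z z) : eta X ▷ Y ≫ tenExt hZ f = f :=
  hom_ext₂ (fun x y => dn_inj (by
    rw [app_comp, app_whiskerRight_smash, app_eta, dn_tenExt]))

end ten

/-- one surjective plot and closed diagonal: compact Hausdorff and good -/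
theorem good_of_surj {K : CH} {p : K → OnePoint Y} (hp : Y.plot K p)
    (hs : Function.Surjective p)
    (hd : ∀ (L : CH) (a b : L → OnePoint Y), Y.plot L a → Y.plot L b → IsClosed {l | a l = b l}) :
    T2Space (Tp Y) ∧ CompactSpace (Tp Y) ∧ Sat Y ∧ WHp Y := by
  have hc : Continuous (fun k => mk (p k)) := cont_plot hp
  have hs' : Function.Surjective (fun k => mk (p k)) := hs
  haveI : CompactSpace (Tp Y) := ⟨by rw [← hs'.range_eq]; exact isCompact_range hc⟩
  have hcl : IsClosedMap (fun k => mk (p k)) := fun S hS => P251CD.isClosed_iff.2 (fun L a ha => by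
    have e : (fun l => mk (a l)) ⁻¹' ((fun k => mk (p k)) '' S) =
        Prod.snd '' ({q : K × L | p q.1 = a q.2} ∩ Prod.fst ⁻¹' S) := by
      ext l
      exact ⟨fun ⟨k, hk, e⟩ => ⟨(k, l), ⟨e, hk⟩, rfl⟩,
        fun ⟨q, ⟨e, hq⟩, e'⟩ => ⟨q.1, hq, e' ▸ e⟩⟩
    rw [e]
    exact isClosedMap_snd_of_compactSpace _ ((hd (CH.prod K L) (fun q => p q.1) (fun q => a q.2)
      (Y.plot_comp (L := CH.prod K L) Prod.fst p continuous_fst hp)
      (Y.plot_comp (L := CH.prod K L) Prod.snd a continuous_snd ha)).inter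
      (hS.preimage continuous_fst)))
  haveI : T1Space (Tp Y) := ⟨fun x => by
    obtain ⟨k, rfl⟩ := hs' x
    simpa only [Set.image_singleton] using hcl {k} isClosed_singleton⟩
  have hpr : IsProperMap (fun k => mk (p k)) := isProperMap_iff_isClosedMap_and_compact_fibers.2
    ⟨hc, hcl, fun x => (isClosed_singleton.preimage hc).isCompact⟩
  haveI : T2Space (Tp Y) := by
    rw [t2_iff_isClosed_diagonal]
    have e : Set.diagonal (Tp Y) = Prod.map (fun k => mk (p k)) (fun k => mk (p k)) ''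
        {q : K × K | p q.1 = p q.2} := by
      ext ⟨x, y⟩
      constructor
      · intro e
        obtain ⟨k, rfl⟩ := hs' x
        cases e
        exact ⟨(k, k), rfl, rfl⟩
      · rintro ⟨⟨k, l⟩, hq, e⟩
        cases e
        exact hq
    rw [e]
    exact (hpr.prodMap hpr).isClosedMap _ (hd (CH.prod K K) (fun q => p q.1) (fun q => p q.2)
      (Y.plot_comp (L := CH.prod K K) Prod.fst p continuous_fst hp)
      (Y.plot_comp (L := CH.prod K K) Prod.snd p continuous_snd hp))
  refine ⟨this, inferInstance, fun L g hg => ?_, whp_iff.2 WH.of_t2⟩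
  haveI := FibProd.compactSpace g (fun k => mk (p k)) hg hc
  refine Y.plot_surj (L := CH.of (FibProd g (fun k => mk (p k)))) (FibProd.fst _ _) _
    (FibProd.continuous_fst _ _)
    (FibProd.surjective_fst _ _ (fun l => (hs' (g l)).imp (fun _ h => h.symm))) ?_
  have e : (fun q : FibProd g (fun k => mk (p k)) => un (g (FibProd.fst _ _ q))) =
      fun q => p (FibProd.snd _ _ q) := funext (fun q => q.2)
  have key := Y.plot_comp (L := CH.of (FibProd g (fun k => mk (p k)))) (FibProd.snd _ _) p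
    (FibProd.continuous_snd _ _) hp
  exact (congrArg (Y.plot (CH.of (FibProd g (fun k => mk (p k))))) e).mpr key

end Vale.Agent.P251CW
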