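import Mathlib.Topology.Compactness.CompactlyGeneratedSpace
import Mathlib.Topology.CompactOpen
import Mathlib.Topology.Separation.Regular
import Mathlib.Topology.Maps.Proper.Basic

/-!
# P251CW: weak Hausdorff spaces

`WH Z`: the image of every continuous map from a compact Hausdorff space is closed.
-/

set_option linter.all false

open Topology Set

namespace Vale.Agent.P251CW

/-- weak Hausdorff spaces -/
def WH (Z : Type) [TopologicalSpace Z] : Prop :=
  ∀ (K : Type) [TopologicalSpace K] [CompactSpace K] [T2Space K] (f : K → Z),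
    Continuous f → IsClosed (Set.range f)

variable {Z : Type} [TopologicalSpace Z]

theorem WH.of_t2 [T2Space Z] : WH Z := fun _ _ _ _ _ hf => (isCompact_range hf).isClosed

theorem WH.t1 (h : WH Z) : T1Space Z :=
  ⟨fun z => by simpa only [Set.range_const] using h Unit (fun _ => z) continuous_const⟩

section

variable {K : Type} [TopologicalSpace K] [CompactSpace K] [T2Space K]

theorem WH.image (h : WH Z) {f : K → Z} (hf : Continuous f) {S : Set K} (hS : IsClosed S) :
    IsClosed (f '' S) := by
  haveI : CompactSpace S := isCompact_iff_compactSpace.mp hS.isCompact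
  rw [Set.image_eq_range]
  exact h S (fun s => f s) (hf.comp continuous_subtype_val)

theorem WH.isClosedMap (h : WH Z) {f : K → Z} (hf : Continuous f) : IsClosedMap f :=
  fun _ hS => h.image hf hS

/-- graphs of maps from compact Hausdorff spaces to weak Hausdorff spaces are closed -/
theorem WH.graph (h : WH Z) {f : K → Z} (hf : Continuous f) :
    IsClosed {p : K × Z | f p.1 = p.2} := by
  haveI := h.t1
  rw [← isOpen_compl_iff, isOpen_iff_mem_nhds]
  rintro ⟨k, z⟩ hp
  have h1 : (f ⁻¹' {z})ᶜ ∈ 𝓝 k :=
    (isClosed_singleton.preimage hf).isOpen_compl.mem_nhds hp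
  obtain ⟨N, hN, hNc, hNs⟩ := exists_mem_nhds_isClosed_subset h1
  have h2 : (f '' N)ᶜ ∈ 𝓝 z := (h.image hf hNc).isOpen_compl.mem_nhds (by
    rintro ⟨m, hm, e⟩
    exact hNs hm e)
  refine Filter.mem_of_superset (prod_mem_nhds hN h2) ?_
  rintro ⟨m, w⟩ ⟨hm, hw⟩ e
  exact hw ⟨m, hm, e⟩

/-- equalisers of maps from compact Hausdorff spaces to weak Hausdorff spaces are closed -/
theorem WH.eq_closed (h : WH Z) {f g : K → Z} (hf : Continuous f) (hg : Continuous g) :
    IsClosed {k | f k = g k} :=
  (h.graph hf).preimage (f := fun k => (k, g k)) (continuous_id.prodMk hg)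

/-- the version with one compact Hausdorff parameter and one arbitrary parameter -/
theorem WH.eq_closed' (h : WH Z) {L : Type} [TopologicalSpace L] {f : K → Z} {g : L → Z}
    (hf : Continuous f) (hg : Continuous g) : IsClosed {p : K × L | f p.1 = g p.2} :=
  (h.graph hf).preimage (f := fun p : K × L => (p.1, g p.2))
    (continuous_fst.prodMk (hg.comp continuous_snd))

end

theorem WH.of_graph (h : ∀ (K : Type) [TopologicalSpace K] [CompactSpace K] [T2Space K]
    (f : K → Z), Continuous f → IsClosed {p : K × Z | f p.1 = p.2}) : WH Z := by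
  intro K _ _ _ f hf
  have e : Set.range f = Prod.snd '' {p : K × Z | f p.1 = p.2} := by
    ext z
    exact ⟨fun ⟨k, hk⟩ => ⟨(k, z), hk, rfl⟩, fun ⟨p, hp, e⟩ => ⟨p.1, hp.trans e⟩⟩
  rw [e]
  exact isClosedMap_snd_of_compactSpace _ (h K f hf)

/-- a space with a continuous injection to a weak Hausdorff space is weak Hausdorff -/
theorem WH.of_inj (h : WH Z) {A : Type} [TopologicalSpace A] {i : A → Z} (hi : Continuous i)
    (hj : Function.Injective i) : WH A := by
  intro K _ _ _ f hf
  have e : Set.range f = i ⁻¹' Set.range (fun k => i (f k)) := by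
    ext a
    exact ⟨fun ⟨k, hk⟩ => ⟨k, congrArg i hk⟩, fun ⟨k, hk⟩ => ⟨k, hj hk⟩⟩
  rw [e]
  exact (h K _ (hi.comp hf)).preimage hi

theorem WH.subtype (h : WH Z) (p : Z → Prop) : WH {z // p z} :=
  h.of_inj continuous_subtype_val Subtype.val_injective

theorem WH.of_homeo (h : WH Z) {A : Type} [TopologicalSpace A] (e : A ≃ₜ Z) : WH A :=
  h.of_inj e.continuous e.injective

theorem WH.pi {ι : Type} {X : ι → Type} [∀ i, TopologicalSpace (X i)] (h : ∀ i, WH (X i)) :
    WH (∀ i, X i) := by
  refine WH.of_graph (fun K _ _ _ f hf => ?_)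
  have e : {p : K × (∀ i, X i) | f p.1 = p.2} =
      ⋂ i, {p : K × (∀ i, X i) | f p.1 i = p.2 i} := by
    ext p
    simp only [Set.mem_setOf_eq, Set.mem_iInter, funext_iff]
  rw [e]
  exact isClosed_iInter (fun i => (h i).eq_closed' (f := fun k => f k i)
    (g := fun x : ∀ i, X i => x i) ((continuous_apply i).comp hf) (continuous_apply i))

theorem WH.prod (h : WH Z) {W : Type} [TopologicalSpace W] (h' : WH W) : WH (Z × W) := by
  refine WH.of_graph (fun K _ _ _ f hf => ?_)
  have e : {p : K × (Z × W) | f p.1 = p.2} =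
      {p : K × (Z × W) | (f p.1).1 = p.2.1} ∩ {p : K × (Z × W) | (f p.1).2 = p.2.2} := by
    ext p
    exact Prod.ext_iff
  rw [e]
  exact (h.eq_closed' (f := fun k => (f k).1) (g := fun x : Z × W => x.1)
    (continuous_fst.comp hf) continuous_fst).inter
    (h'.eq_closed' (f := fun k => (f k).2) (g := fun x : Z × W => x.2)
      (continuous_snd.comp hf) continuous_snd)

/-- mapping spaces into weak Hausdorff spaces are weak Hausdorff -/
theorem WH.cmap (h : WH Z) (L : Type) [TopologicalSpace L] : WH C(L, Z) :=
  (WH.pi (X := fun _ : L => Z) (fun _ => h)).of_inj (i := fun f : C(L, Z) => fun l => f l)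
    (continuous_pi (fun l => continuous_eval_const l)) (fun _ _ e => DFunLike.coe_injective e)

/-- closed equalisers give closed preimages of images -/
theorem closed_preimage_range
    (h : ∀ (K : Type) [TopologicalSpace K] [CompactSpace K] [T2Space K] (f g : K → Z),
      Continuous f → Continuous g → IsClosed {k | f k = g k})
    {K L : Type} [TopologicalSpace K] [CompactSpace K] [T2Space K] [TopologicalSpace L]
    [CompactSpace L] [T2Space L] {f : K → Z} {g : L → Z} (hf : Continuous f)
    (hg : Continuous g) : IsClosed (g ⁻¹' Set.range f) := by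
  have e : g ⁻¹' Set.range f = Prod.snd '' {p : K × L | f p.1 = g p.2} := by
    ext l
    exact ⟨fun ⟨k, hk⟩ => ⟨(k, l), hk, rfl⟩, fun ⟨p, hp, e⟩ => ⟨p.1, e ▸ hp⟩⟩
  rw [e]
  exact isClosedMap_snd_of_compactSpace _
    (h (K × L) _ _ (hf.comp continuous_fst) (hg.comp continuous_snd))

/-- a compactly generated space with closed equalisers is weak Hausdorff -/
theorem WH.of_cg [CompactlyGeneratedSpace Z]
    (h : ∀ (K : Type) [TopologicalSpace K] [CompactSpace K] [T2Space K] (f g : K → Z),
      Continuous f → Continuous g → IsClosed {k | f k = g k}) : WH Z :=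
  fun _ _ _ _ _ hf => CompactlyGeneratedSpace.isClosed'
    (fun _ _ _ _ _ hg => closed_preimage_range h hf hg)

/-- the image of a compact Hausdorff space in a weak Hausdorff space is Hausdorff -/
theorem WH.t2_of_surj (h : WH Z) {K : Type} [TopologicalSpace K] [CompactSpace K] [T2Space K]
    {f : K → Z} (hf : Continuous f) (hs : Function.Surjective f) : T2Space Z := by
  haveI : CompactSpace Z := ⟨by rw [← hs.range_eq]; exact isCompact_range hf⟩
  haveI := h.t1
  rw [t2_iff_isClosed_diagonal]
  have hp : IsProperMap f := isProperMap_iff_isClosedMap_and_compact_fibers.2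
    ⟨hf, h.isClosedMap hf, fun z => (isClosed_singleton.preimage hf).isCompact⟩
  have e : Set.diagonal Z = Prod.map f id '' {p : K × Z | f p.1 = p.2} := by
    ext ⟨z, w⟩
    constructor
    · intro e
      obtain ⟨k, rfl⟩ := hs z
      exact ⟨(k, w), e, rfl⟩
    · rintro ⟨⟨k, v⟩, hp, e⟩
      cases e
      exact hp
  rw [e]
  exact (hp.prodMap isProperMap_id).isClosedMap _ (h.graph hf)

end Vale.Agent.P251CW
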